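import Vale.Agent.P050.T.Average

/-! P050: a good lift exists, with vertex weights. -/

namespace Vale.Agent.P050.L

open Finset Vale.Agent.P050.T

variable {N M k : ℕ} {A B E : Type*} [Fintype A] [DecidableEq A] [Fintype B] [DecidableEq B]
  [Fintype E] [DecidableEq E]

theorem avg_pow_le' {n c : ℝ} {a e : ℕ} (hc : 0 < c) (hcn : c ≤ n) (hae : a ≤ e) :
    n ^ a * (1 / n) ^ e ≤ c ^ a * (1 / c) ^ e := by
  have hn : 0 < n := lt_of_lt_of_le hc hcn
  obtain ⟨d, rfl⟩ := Nat.exists_eq_add_of_le hae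
  have h1 : ∀ x : ℝ, 0 < x → x ^ a * (1 / x) ^ (a + d) = (1 / x) ^ d := by
    intro x hx
    rw [pow_add, ← mul_assoc, ← mul_pow, mul_one_div_cancel hx.ne', one_pow, one_mul]
  rw [h1 n hn, h1 c hc]
  exact pow_le_pow_left₀ (by positivity) (one_div_le_one_div_of_le hc hcn) d

theorem prod_weight_eq {w : Fin N → ℝ} {x x' : Fin k → Fin N} (h : cnt x = cnt x') :
    ∏ i, w (x' i) = ∏ i, w (x i) := by
  obtain ⟨τ, hτ⟩ := exists_perm_of_cnt_eq x x' h
  calc ∏ i, w (x' i) = ∏ i, w (x (τ i)) := Finset.prod_congr rfl fun i _ => by rw [hτ i]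
    _ = ∏ i, w (x i) := Equiv.prod_comp τ (fun i => w (x i))

theorem sum_prod_weight (w : Fin N → ℝ) : ∑ x : Fin k → Fin N, ∏ i, w (x i) = (∑ a, w a) ^ k := by
  rw [Finset.sum_pow', Fintype.piFinset_univ]

theorem exists_liftW {W : Fin N → Fin M → ℝ} (hW : ∀ x y, 0 ≤ W x y) {w : Fin N → ℝ}
    {v : Fin M → ℝ} (hw : ∀ x, 0 ≤ w x) (hv : ∀ y, 0 ≤ v y) (hN : 0 < ∑ x, w x)
    (hM : 0 < ∑ y, v y)
    (α : E → A) (β : E → B) (hα : Function.Surjective α) (hβ : Function.Surjective β) :
    ∃ σ : E → Equiv.Perm (Fin k),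
      (∑ x, w x) ^ (k * Fintype.card A) * (∑ y, v y) ^ (k * Fintype.card B) *
        (((∑ x, ∑ y, w x * v y * W x y) / ((∑ x, w x) * ∑ y, v y)) ^ k /
          ((k : ℝ) + 1) ^ (N + M)) ^ Fintype.card E ≤
      ∑ x : A → Fin k → Fin N, ∑ y : B → Fin k → Fin M,
        (∏ a, ∏ i, w (x a i)) * (∏ b, ∏ i, v (y b i)) *
        ∏ e, ∏ i, W (x (α e) i) (y (β e) (σ e i)) := by
  classical
  set n₁ := ∑ x, w x with hn₁
  set n₂ := ∑ y, v y with hn₂
  obtain ⟨m, n, hS⟩ := exists_types (k := k) (W := fun x y => w x * v y * W x y)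
    (fun x y => mul_nonneg (mul_nonneg (hw x) (hv y)) (hW x y))
  set X := univ.filter (fun x : Fin k → Fin N => cnt x = m) with hX
  set Y := univ.filter (fun y : Fin k → Fin M => cnt y = n) with hY
  set S' : ℝ := ∑ x ∈ X, ∑ y ∈ Y, ∏ i, (w (x i) * v (y i) * W (x i) (y i)) with hSdef'
  have hS0' : 0 ≤ S' := Finset.sum_nonneg fun x _ => Finset.sum_nonneg fun y _ =>
    Finset.prod_nonneg fun i _ => mul_nonneg (mul_nonneg (hw _) (hv _)) (hW _ _)
  set S : ℝ := ∑ x ∈ X, ∑ y ∈ Y, ∏ i, W (x i) (y i) with hSdef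
  have hT0 : 0 ≤ ∑ x, ∑ y, w x * v y * W x y :=
    Finset.sum_nonneg fun x _ => Finset.sum_nonneg fun y _ =>
      mul_nonneg (mul_nonneg (hw _) (hv _)) (hW _ _)
  have hNk : (0 : ℝ) < n₁ ^ k := by positivity
  have hMk : (0 : ℝ) < n₂ ^ k := by positivity
  set L : ℝ := ((∑ x, ∑ y, w x * v y * W x y) / (n₁ * n₂)) ^ k / ((k : ℝ) + 1) ^ (N + M) with hL
  have hL0 : 0 ≤ L := by positivity
  have hLle : L ≤ S' * (1 / n₁ ^ k) * (1 / n₂ ^ k) := by
    have e1 : L = ((∑ x, ∑ y, w x * v y * W x y) ^ k / ((k : ℝ) + 1) ^ (N + M)) *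
        (1 / n₁ ^ k) * (1 / n₂ ^ k) := by
      rw [hL, div_pow, mul_pow]
      field_simp
    rw [e1]
    exact mul_le_mul_of_nonneg_right (mul_le_mul_of_nonneg_right hS (by positivity))
      (by positivity)
  have hterm : ∀ (σ : E → Equiv.Perm (Fin k)) (x : A → Fin k → Fin N) (y : B → Fin k → Fin M),
      0 ≤ (∏ a, ∏ i, w (x a i)) * (∏ b, ∏ i, v (y b i)) *
        ∏ e, ∏ i, W (x (α e) i) (y (β e) (σ e i)) := fun σ x y =>
    mul_nonneg (mul_nonneg (Finset.prod_nonneg fun a _ => Finset.prod_nonneg fun i _ => hw _)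
      (Finset.prod_nonneg fun a _ => Finset.prod_nonneg fun i _ => hv _))
      (Finset.prod_nonneg fun e _ => Finset.prod_nonneg fun i _ => hW _ _)
  rcases isEmpty_or_nonempty E with hE | hE
  · have hA : IsEmpty A := ⟨fun a => (hα a).elim fun e _ => hE.false e⟩
    have hB : IsEmpty B := ⟨fun b => (hβ b).elim fun e _ => hE.false e⟩
    refine ⟨fun _ => 1, ?_⟩
    simp
  · have hEpos : 0 < Fintype.card E := Fintype.card_pos
    rcases hS0'.eq_or_lt with hSz | hSpos
    · refine ⟨fun _ => 1, ?_⟩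
      have hLz : L = 0 := by
        refine le_antisymm ?_ hL0
        rw [← hSz] at hLle
        simpa using hLle
      rw [hLz, zero_pow hEpos.ne', mul_zero]
      exact Finset.sum_nonneg fun x _ => Finset.sum_nonneg fun y _ => hterm _ x y
    · -- the main case
      have hXne : X.Nonempty := by
        by_contra h
        rw [Finset.not_nonempty_iff_eq_empty] at h
        rw [hSdef', h, Finset.sum_empty] at hSpos
        exact lt_irrefl _ hSpos
      have hYne : Y.Nonempty := by
        by_contra h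
        rw [Finset.not_nonempty_iff_eq_empty] at h
        rw [hSdef', h] at hSpos
        simp at hSpos
      obtain ⟨x₁, hx₁⟩ := hXne
      obtain ⟨y₁, hy₁⟩ := hYne
      have hx₁' : cnt x₁ = m := by rw [hX, Finset.mem_filter] at hx₁; exact hx₁.2
      have hy₁' : cnt y₁ = n := by rw [hY, Finset.mem_filter] at hy₁; exact hy₁.2
      set ω : ℝ := ∏ i, w (x₁ i) with hω
      set υ : ℝ := ∏ i, v (y₁ i) with hυ
      have hωX : ∀ x ∈ X, ∏ i, w (x i) = ω := by
        intro x hx
        rw [hX, Finset.mem_filter] at hx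
        exact prod_weight_eq (hx₁'.trans hx.2.symm)
      have hυY : ∀ y ∈ Y, ∏ i, v (y i) = υ := by
        intro y hy
        rw [hY, Finset.mem_filter] at hy
        exact prod_weight_eq (hy₁'.trans hy.2.symm)
      have hSS : S' = ω * υ * S := by
        rw [hSdef', hSdef, Finset.mul_sum]
        refine Finset.sum_congr rfl fun x hx => ?_
        rw [Finset.mul_sum]
        refine Finset.sum_congr rfl fun y hy => ?_
        rw [Finset.prod_mul_distrib, Finset.prod_mul_distrib, hωX x hx, hυY y hy]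
      have hω0 : 0 ≤ ω := Finset.prod_nonneg fun i _ => hw _
      have hυ0 : 0 ≤ υ := Finset.prod_nonneg fun i _ => hv _
      have hωne : ω ≠ 0 := by
        intro h; rw [hSS, h] at hSpos; simp at hSpos
      have hυne : υ ≠ 0 := by
        intro h; rw [hSS, h] at hSpos; simp at hSpos
      have hωpos : 0 < ω := lt_of_le_of_ne hω0 (Ne.symm hωne)
      have hυpos : 0 < υ := lt_of_le_of_ne hυ0 (Ne.symm hυne)
      have hcX1 : (0 : ℝ) < X.card := by exact_mod_cast Finset.card_pos.2 ⟨x₁, hx₁⟩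
      have hcY1 : (0 : ℝ) < Y.card := by exact_mod_cast Finset.card_pos.2 ⟨y₁, hy₁⟩
      have hcX : (0 : ℝ) < X.card * ω := mul_pos hcX1 hωpos
      have hcY : (0 : ℝ) < Y.card * υ := mul_pos hcY1 hυpos
      have hcXN : (X.card : ℝ) * ω ≤ n₁ ^ k := by
        have h1 : (X.card : ℝ) * ω = ∑ x ∈ X, ∏ i, w (x i) := by
          rw [Finset.sum_congr rfl hωX, Finset.sum_const, nsmul_eq_mul]
        rw [h1, hn₁, ← sum_prod_weight]
        exact Finset.sum_le_sum_of_subset_of_nonneg (Finset.subset_univ X) fun x _ _ =>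
          Finset.prod_nonneg fun i _ => hw _
      have hcYM : (Y.card : ℝ) * υ ≤ n₂ ^ k := by
        have h1 : (Y.card : ℝ) * υ = ∑ y ∈ Y, ∏ i, v (y i) := by
          rw [Finset.sum_congr rfl hυY, Finset.sum_const, nsmul_eq_mul]
        rw [h1, hn₂, ← sum_prod_weight]
        exact Finset.sum_le_sum_of_subset_of_nonneg (Finset.subset_univ Y) fun x _ _ =>
          Finset.prod_nonneg fun i _ => hv _
      have haE : Fintype.card A ≤ Fintype.card E := Fintype.card_le_of_surjective α hα
      have hbE : Fintype.card B ≤ Fintype.card E := Fintype.card_le_of_surjective β hβ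
      have hfac : (0 : ℝ) < (k.factorial : ℝ) := by exact_mod_cast Nat.factorial_pos k
      -- inner sums
      have hinner : ∀ x₀ ∈ X, ∀ y₀ ∈ Y,
          ∑ σ : Equiv.Perm (Fin k), ∏ i, W (x₀ i) (y₀ (σ i))
            = (k.factorial : ℝ) * (S' * (1 / (X.card * ω)) * (1 / (Y.card * υ))) := by
        intro x₀ hx₀ y₀ hy₀
        have h1 := sum_perm W x₀ y₀
        rw [hX, Finset.mem_filter] at hx₀
        rw [hY, Finset.mem_filter] at hy₀
        rw [hx₀.2, hy₀.2, ← hX, ← hY, ← hSdef] at h1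
        rw [hSS]
        field_simp
        linarith
      -- average over `σ`
      set PX := Fintype.piFinset (fun _ : A => X) with hPX
      set PY := Fintype.piFinset (fun _ : B => Y) with hPY
      set V : ℝ := (X.card * ω : ℝ) ^ Fintype.card A * (Y.card * υ : ℝ) ^ Fintype.card B *
        (S' * (1 / (X.card * ω)) * (1 / (Y.card * υ))) ^ Fintype.card E with hV
      have htot : ∑ σ : E → Equiv.Perm (Fin k), ∑ x ∈ PX, ∑ y ∈ PY,
          (∏ a, ∏ i, w (x a i)) * (∏ b, ∏ i, v (y b i)) *
          ∏ e, ∏ i, W (x (α e) i) (y (β e) (σ e i))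
          = ∑ σ : E → Equiv.Perm (Fin k), V := by
        rw [Finset.sum_comm]
        have h1 : ∀ x ∈ PX, ∑ σ : E → Equiv.Perm (Fin k), ∑ y ∈ PY,
            (∏ a, ∏ i, w (x a i)) * (∏ b, ∏ i, v (y b i)) *
            ∏ e, ∏ i, W (x (α e) i) (y (β e) (σ e i))
            = ∑ y ∈ PY, ω ^ Fintype.card A * υ ^ Fintype.card B *
              ((k.factorial : ℝ) * (S' * (1 / (X.card * ω)) * (1 / (Y.card * υ)))) ^
              Fintype.card E := by
          intro x hx
          rw [Finset.sum_comm]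
          refine Finset.sum_congr rfl fun y hy => ?_
          have h2 := Finset.prod_univ_sum (fun _ : E => (univ : Finset (Equiv.Perm (Fin k))))
            (fun e τ => ∏ i, W (x (α e) i) (y (β e) (τ i)))
          rw [Fintype.piFinset_univ] at h2
          rw [← Finset.mul_sum, ← h2]
          have h3 : ∀ e : E, ∑ τ : Equiv.Perm (Fin k), ∏ i, W (x (α e) i) (y (β e) (τ i))
              = (k.factorial : ℝ) * (S' * (1 / (X.card * ω)) * (1 / (Y.card * υ))) := fun e =>
            hinner _ (Fintype.mem_piFinset.mp hx (α e)) _ (Fintype.mem_piFinset.mp hy (β e))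
          have h4 : ∏ a, ∏ i, w (x a i) = ω ^ Fintype.card A := by
            rw [Finset.prod_congr rfl fun a _ => hωX _ (Fintype.mem_piFinset.mp hx a),
              Finset.prod_const, Finset.card_univ]
          have h5 : ∏ b, ∏ i, v (y b i) = υ ^ Fintype.card B := by
            rw [Finset.prod_congr rfl fun b _ => hυY _ (Fintype.mem_piFinset.mp hy b),
              Finset.prod_const, Finset.card_univ]
          rw [Finset.prod_congr rfl fun e _ => h3 e, Finset.prod_const, Finset.card_univ, h4, h5]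
        rw [Finset.sum_congr rfl h1, Finset.sum_const, Finset.sum_const, Finset.sum_const,
          hPX, hPY, Fintype.card_piFinset, Fintype.card_piFinset, Finset.prod_const,
          Finset.prod_const, Finset.card_univ, Finset.card_univ, Finset.card_univ,
          Fintype.card_fun, Fintype.card_perm, Fintype.card_fin, hV]
        simp only [nsmul_eq_mul, Nat.cast_pow]
        rw [mul_pow, mul_pow (X.card : ℝ), mul_pow (Y.card : ℝ)]
        ring
      obtain ⟨σ, -, hσ⟩ := Finset.exists_le_of_sum_le (s := univ)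
        (f := fun _ : E → Equiv.Perm (Fin k) => V)
        (g := fun σ => ∑ x ∈ PX, ∑ y ∈ PY, (∏ a, ∏ i, w (x a i)) * (∏ b, ∏ i, v (y b i)) *
          ∏ e, ∏ i, W (x (α e) i) (y (β e) (σ e i)))
        ⟨fun _ => 1, Finset.mem_univ _⟩ (le_of_eq htot.symm)
      refine ⟨σ, ?_⟩
      have hrestr : ∑ x ∈ PX, ∑ y ∈ PY, (∏ a, ∏ i, w (x a i)) * (∏ b, ∏ i, v (y b i)) *
          ∏ e, ∏ i, W (x (α e) i) (y (β e) (σ e i))
          ≤ ∑ x : A → Fin k → Fin N, ∑ y : B → Fin k → Fin M,
            (∏ a, ∏ i, w (x a i)) * (∏ b, ∏ i, v (y b i)) *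
            ∏ e, ∏ i, W (x (α e) i) (y (β e) (σ e i)) := by
        refine (Finset.sum_le_sum fun x _ => Finset.sum_le_sum_of_subset_of_nonneg
          (Finset.subset_univ PY) fun y _ _ => hterm σ x y).trans ?_
        exact Finset.sum_le_sum_of_subset_of_nonneg (Finset.subset_univ PX) fun x _ _ =>
          Finset.sum_nonneg fun y _ => hterm σ x y
      refine le_trans ?_ (hσ.trans hrestr)
      have b1 := avg_pow_le' hcX hcXN haE
      have b2 := avg_pow_le' hcY hcYM hbE
      calc n₁ ^ (k * Fintype.card A) * n₂ ^ (k * Fintype.card B) * L ^ Fintype.card E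
          ≤ n₁ ^ (k * Fintype.card A) * n₂ ^ (k * Fintype.card B) *
            (S' * (1 / n₁ ^ k) * (1 / n₂ ^ k)) ^ Fintype.card E :=
              mul_le_mul_of_nonneg_left (pow_le_pow_left₀ hL0 hLle _) (by positivity)
        _ = S' ^ Fintype.card E * (((n₁ ^ k) ^ Fintype.card A *
              (1 / n₁ ^ k) ^ Fintype.card E) * ((n₂ ^ k) ^ Fintype.card B *
              (1 / n₂ ^ k) ^ Fintype.card E)) := by
              rw [pow_mul, pow_mul, mul_pow, mul_pow]; ring
        _ ≤ S' ^ Fintype.card E * (((X.card * ω : ℝ) ^ Fintype.card A *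
              (1 / (X.card * ω : ℝ)) ^ Fintype.card E) * ((Y.card * υ : ℝ) ^ Fintype.card B *
              (1 / (Y.card * υ : ℝ)) ^ Fintype.card E)) := by
              refine mul_le_mul_of_nonneg_left ?_ (by positivity)
              exact mul_le_mul b1 b2 (by positivity) (by positivity)
        _ = V := by
              have e9 : (S' * (1 / (X.card * ω)) * (1 / (Y.card * υ)) : ℝ) ^ Fintype.card E =
                  S' ^ Fintype.card E * (1 / (X.card * ω : ℝ)) ^ Fintype.card E *
                    (1 / (Y.card * υ : ℝ)) ^ Fintype.card E := by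
                rw [mul_pow, mul_pow]
              rw [hV, e9]
              generalize (1 / (X.card * ω : ℝ)) ^ Fintype.card E = z₁
              generalize (1 / (Y.card * υ : ℝ)) ^ Fintype.card E = z₂
              generalize (X.card * ω : ℝ) ^ Fintype.card A = z₃
              generalize (Y.card * υ : ℝ) ^ Fintype.card B = z₄
              ring

end Vale.Agent.P050.L
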