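import Vale.Agent.P050.T.Uncross
import Vale.Agent.P050.T.KLift

/-! P050, log-supermodular kernels on finite distributive lattices: codes. -/

namespace Vale.Agent.P050.L

open Finset Vale.Agent.P050.T

variable {X Y P Q : Type*} [Fintype X] [Fintype Y] [Fintype P] [DecidableEq P] [Fintype Q]
  [DecidableEq Q]

/-- Nonnegative log-supermodular kernel on a pair of lattices. -/
def LSK [Lattice X] [Lattice Y] (W : X → Y → ℝ) : Prop :=
  (∀ x y, 0 ≤ W x y) ∧
    ∀ x x' y y', W x y * W x' y' ≤ W (x ⊓ x') (y ⊓ y') * W (x ⊔ x') (y ⊔ y')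

/-- A code: an injective lattice homomorphism into bits. -/
structure IsCode [Lattice X] (c : X → P → Bool) : Prop where
  inj : Function.Injective c
  inf : ∀ x x', c (x ⊓ x') = c x ⊓ c x'
  sup : ∀ x x', c (x ⊔ x') = c x ⊔ c x'

/-- The kernel on bits, zero off the codes. -/
def WG (c : X → P → Bool) (d : Y → Q → Bool) (W : X → Y → ℝ) (p : P → Bool) (r : Q → Bool) : ℝ :=
  ∑ x, ∑ y, if p = c x ∧ r = d y then W x y else 0

theorem WG_code {c : X → P → Bool} {d : Y → Q → Bool} (hc : Function.Injective c)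
    (hd : Function.Injective d) (W : X → Y → ℝ) (x : X) (y : Y) :
    WG c d W (c x) (d y) = W x y := by
  unfold WG
  rw [Finset.sum_eq_single x, Finset.sum_eq_single y]
  · simp
  · intro b _ hb
    rw [if_neg]
    rintro ⟨_, h⟩
    exact hb (hd h).symm
  · intro h; exact absurd (Finset.mem_univ _) h
  · intro b _ hb
    refine Finset.sum_eq_zero fun e _ => ?_
    rw [if_neg]
    rintro ⟨h, _⟩
    exact hb (hc h).symm
  · intro h; exact absurd (Finset.mem_univ _) h

theorem WG_eq_zero {c : X → P → Bool} {d : Y → Q → Bool} (W : X → Y → ℝ) {p : P → Bool}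
    {r : Q → Bool} (h : ¬ ((∃ x, p = c x) ∧ ∃ y, r = d y)) : WG c d W p r = 0 := by
  unfold WG
  refine Finset.sum_eq_zero fun x _ => Finset.sum_eq_zero fun y _ => ?_
  rw [if_neg]
  rintro ⟨h1, h2⟩
  exact h ⟨⟨x, h1⟩, ⟨y, h2⟩⟩

theorem lsm_WG [Lattice X] [Lattice Y] {c : X → P → Bool} {d : Y → Q → Bool} (hc : IsCode c)
    (hd : IsCode d) {W : X → Y → ℝ} (hW : LSK W) :
    LSM fun p : (P → Bool) × (Q → Bool) => WG c d W p.1 p.2 := by
  have h0 : ∀ p : (P → Bool) × (Q → Bool), 0 ≤ WG c d W p.1 p.2 := by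
    intro p
    unfold WG
    refine Finset.sum_nonneg fun x _ => Finset.sum_nonneg fun y _ => ?_
    split
    · exact hW.1 x y
    · exact le_rfl
  refine ⟨h0, ?_⟩
  rintro ⟨p1, p2⟩ ⟨q1, q2⟩
  by_cases hp : (∃ x, p1 = c x) ∧ ∃ y, p2 = d y
  · by_cases hq : (∃ x, q1 = c x) ∧ ∃ y, q2 = d y
    · obtain ⟨⟨x, rfl⟩, y, rfl⟩ := hp
      obtain ⟨⟨x', rfl⟩, y', rfl⟩ := hq
      show WG c d W (c x) (d y) * WG c d W (c x') (d y') ≤
        WG c d W (c x ⊓ c x') (d y ⊓ d y') * WG c d W (c x ⊔ c x') (d y ⊔ d y')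
      rw [← hc.inf, ← hc.sup, ← hd.inf, ← hd.sup, WG_code hc.inj hd.inj, WG_code hc.inj hd.inj,
        WG_code hc.inj hd.inj, WG_code hc.inj hd.inj]
      exact hW.2 x x' y y'
    · show WG c d W p1 p2 * WG c d W q1 q2 ≤ _
      rw [WG_eq_zero W hq, mul_zero]
      exact mul_nonneg (h0 _) (h0 _)
  · show WG c d W p1 p2 * WG c d W q1 q2 ≤ _
    rw [WG_eq_zero W hp, zero_mul]
    exact mul_nonneg (h0 _) (h0 _)

/-- Every finite distributive lattice has a code (Birkhoff). -/
theorem exists_code (L : Type*) [DistribLattice L] [Fintype L] :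
    ∃ (n : ℕ) (c : L → Fin n → Bool), IsCode c := by
  classical
  obtain ⟨β, i1, i2, f, hf⟩ := exists_birkhoff_representation L
  let e := Fintype.equivFin β
  refine ⟨Fintype.card β, fun x t => decide (e.symm t ∈ f x), ?_, ?_, ?_⟩
  · intro x y h
    apply hf
    ext b
    have h1 := congrFun h (e b)
    simpa using h1
  · intro x y
    funext t
    simp [Bool.decide_and]
  · intro x y
    funext t
    simp [Bool.decide_or]

end Vale.Agent.P050.L
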