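import Vale.Agent.P050.L.Code

/-! P050: the lift inequality for log-supermodular kernels that may depend on the edge. -/

namespace Vale.Agent.P050.L

open Finset Vale.Agent.P050.T

variable {k : ℕ} {X Y P Q : Type*} [Fintype X] [Fintype Y] [Fintype P] [DecidableEq P] [Fintype Q]
  [DecidableEq Q]
  {A B E : Type*} [Fintype A] [DecidableEq A] [Fintype B] [DecidableEq B]
  [Fintype E] [DecidableEq E]

/-- the weight of a state of all bits of all copies -/
def gL (c : X → P → Bool) (d : Y → Q → Bool) (W : E → X → Y → ℝ) (α : E → A) (β : E → B)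
    (σ : E → Equiv.Perm (Fin k)) (s : (A × P) ⊕ (B × Q) → Finset (Fin k)) : ℝ :=
  ∏ e, ∏ i, WG c d (W e) (fun t => decide (i ∈ s (Sum.inl (α e, t))))
    (fun t => decide (σ e i ∈ s (Sum.inr (β e, t))))

/-- the weight of a state of all bits -/
def fL (c : X → P → Bool) (d : Y → Q → Bool) (W : E → X → Y → ℝ) (α : E → A) (β : E → B)
    (y : (A × P) ⊕ (B × Q) → Bool) : ℝ :=
  ∏ e, WG c d (W e) (fun t => y (Sum.inl (α e, t))) (fun t => y (Sum.inr (β e, t)))

theorem lsm_gL [Lattice X] [Lattice Y] {c : X → P → Bool} {d : Y → Q → Bool} (hc : IsCode c)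
    (hd : IsCode d) {W : E → X → Y → ℝ} (hW : ∀ e, LSK (W e)) (α : E → A) (β : E → B)
    (σ : E → Equiv.Perm (Fin k)) : LSM (gL c d W α β σ) := by
  have h0 : ∀ e (p : (P → Bool) × (Q → Bool)), 0 ≤ WG c d (W e) p.1 p.2 :=
    fun e => (lsm_WG hc hd (hW e)).1
  constructor
  · intro s
    exact Finset.prod_nonneg fun e _ => Finset.prod_nonneg fun i _ => h0 e (_, _)
  · intro s s'
    unfold gL
    rw [← Finset.prod_mul_distrib, ← Finset.prod_mul_distrib]
    refine Finset.prod_le_prod (fun e _ => mul_nonneg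
      (Finset.prod_nonneg fun i _ => h0 e (_, _)) (Finset.prod_nonneg fun i _ => h0 e (_, _)))
      fun e _ => ?_
    rw [← Finset.prod_mul_distrib, ← Finset.prod_mul_distrib]
    refine Finset.prod_le_prod (fun i _ => mul_nonneg (h0 e (_, _)) (h0 e (_, _))) fun i _ => ?_
    have h2 := (lsm_WG hc hd (hW e)).2 (fun t => decide (i ∈ s (Sum.inl (α e, t))),
      fun t => decide (σ e i ∈ s (Sum.inr (β e, t))))
      (fun t => decide (i ∈ s' (Sum.inl (α e, t))),
      fun t => decide (σ e i ∈ s' (Sum.inr (β e, t))))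
    refine h2.trans (le_of_eq ?_)
    have e1 : (fun t => decide (i ∈ (s ⊓ s') (Sum.inl (α e, t)))) =
        (fun t => decide (i ∈ s (Sum.inl (α e, t)))) ⊓
          (fun t => decide (i ∈ s' (Sum.inl (α e, t)))) := by
      funext t
      by_cases ha : i ∈ s (Sum.inl (α e, t)) <;> by_cases hb : i ∈ s' (Sum.inl (α e, t)) <;>
        simp [ha, hb]
    have e2 : (fun t => decide (σ e i ∈ (s ⊓ s') (Sum.inr (β e, t)))) =
        (fun t => decide (σ e i ∈ s (Sum.inr (β e, t)))) ⊓
          (fun t => decide (σ e i ∈ s' (Sum.inr (β e, t)))) := by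
      funext t
      by_cases ha : σ e i ∈ s (Sum.inr (β e, t)) <;>
        by_cases hb : σ e i ∈ s' (Sum.inr (β e, t)) <;> simp [ha, hb]
    have e3 : (fun t => decide (i ∈ (s ⊔ s') (Sum.inl (α e, t)))) =
        (fun t => decide (i ∈ s (Sum.inl (α e, t)))) ⊔
          (fun t => decide (i ∈ s' (Sum.inl (α e, t)))) := by
      funext t
      by_cases ha : i ∈ s (Sum.inl (α e, t)) <;> by_cases hb : i ∈ s' (Sum.inl (α e, t)) <;>
        simp [ha, hb]
    have e4 : (fun t => decide (σ e i ∈ (s ⊔ s') (Sum.inr (β e, t)))) =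
        (fun t => decide (σ e i ∈ s (Sum.inr (β e, t)))) ⊔
          (fun t => decide (σ e i ∈ s' (Sum.inr (β e, t)))) := by
      funext t
      by_cases ha : σ e i ∈ s (Sum.inr (β e, t)) <;>
        by_cases hb : σ e i ∈ s' (Sum.inr (β e, t)) <;> simp [ha, hb]
    rw [e1, e2, e3, e4]
    rfl

theorem gL_le [Lattice X] [Lattice Y] {c : X → P → Bool} {d : Y → Q → Bool} (hc : IsCode c)
    (hd : IsCode d) {W : E → X → Y → ℝ} (hW : ∀ e, LSK (W e)) (α : E → A) (β : E → B)
    (σ : E → Equiv.Perm (Fin k)) (s : (A × P) ⊕ (B × Q) → Finset (Fin k)) :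
    gL c d W α β σ s ≤ ∏ j : Fin k, fL c d W α β (fun b => decide ((j : ℕ) < (s b).card)) := by
  unfold gL fL
  rw [Finset.prod_comm (s := (Finset.univ : Finset (Fin k)))]
  refine Finset.prod_le_prod (fun e _ => Finset.prod_nonneg fun i _ =>
    (lsm_WG hc hd (hW e)).1 (_, _)) fun e _ => ?_
  have h2 := uncrossB (lsm_WG hc hd (hW e))
    (fun (i : Fin k) (t : P) => decide (i ∈ s (Sum.inl (α e, t))))
    (fun (i : Fin k) (t : Q) => decide (σ e i ∈ s (Sum.inr (β e, t))))
  refine h2.trans (le_of_eq ?_)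
  refine Finset.prod_congr rfl fun j _ => ?_
  have e1 : ostB (fun (i : Fin k) (t : P) => decide (i ∈ s (Sum.inl (α e, t)))) j =
      fun t => decide ((j : ℕ) < (s (Sum.inl (α e, t))).card) := by
    funext t
    unfold ostB
    congr 3
    simp
  have e2 : ostB (fun (i : Fin k) (t : Q) => decide (σ e i ∈ s (Sum.inr (β e, t)))) j =
      fun t => decide ((j : ℕ) < (s (Sum.inr (β e, t))).card) := by
    funext t
    unfold ostB
    have h3 : (univ.filter fun l => decide (σ e l ∈ s (Sum.inr (β e, t))) = true) =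
        (s (Sum.inr (β e, t))).map (σ e).symm.toEmbedding := by
      ext l
      simp only [mem_filter, mem_univ, true_and, decide_eq_true_eq, mem_map_equiv,
        Equiv.symm_symm]
    rw [h3, card_map]
  show WG c d (W e) _ _ = _
  rw [e1, e2]

theorem sum_gL {c : X → P → Bool} {d : Y → Q → Bool} (hc : Function.Injective c)
    (hd : Function.Injective d) (W : E → X → Y → ℝ) (α : E → A) (β : E → B)
    (hα : Function.Surjective α) (hβ : Function.Surjective β) (σ : E → Equiv.Perm (Fin k)) :
    ∑ s, gL c d W α β σ s = ∑ x : A → Fin k → X, ∑ y : B → Fin k → Y,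
      ∏ e, ∏ i, W e (x (α e) i) (y (β e) (σ e i)) := by
  rw [← Fintype.sum_prod_type' (f := fun (x : A → Fin k → X) (y : B → Fin k → Y) =>
      ∏ e, ∏ i, W e (x (α e) i) (y (β e) (σ e i)))]
  symm
  let φ : (A → Fin k → X) × (B → Fin k → Y) →
      ((A × P) ⊕ (B × Q) → Finset (Fin k)) := fun p =>
    Sum.elim (fun q => univ.filter fun i => c (p.1 q.1 i) q.2 = true)
      (fun q => univ.filter fun i => d (p.2 q.1 i) q.2 = true)
  have hl : ∀ p a i, (fun t => decide (i ∈ φ p (Sum.inl (a, t)))) = c (p.1 a i) := by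
    intro p a i
    funext t
    simp [φ]
  have hr : ∀ p b i, (fun t => decide (i ∈ φ p (Sum.inr (b, t)))) = d (p.2 b i) := by
    intro p b i
    funext t
    simp [φ]
  refine Finset.sum_of_injOn φ ?_ (fun p _ => by simp) ?_ ?_
  · intro p _ p' _ h
    refine Prod.ext ?_ ?_
    · funext a i
      apply hc
      rw [← hl p, ← hl p', h]
    · funext b i
      apply hd
      rw [← hr p, ← hr p', h]
  · intro s _ hs
    by_contra hne
    apply hs
    have hW : ∀ e i, WG c d (W e) (fun t => decide (i ∈ s (Sum.inl (α e, t))))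
        (fun t => decide (σ e i ∈ s (Sum.inr (β e, t)))) ≠ 0 := by
      intro e i h0
      apply hne
      unfold gL
      exact Finset.prod_eq_zero (Finset.mem_univ e) (Finset.prod_eq_zero (Finset.mem_univ i) h0)
    have hcc : ∀ e i, (∃ x : X, (fun t => decide (i ∈ s (Sum.inl (α e, t)))) = c x) ∧
        ∃ y : Y, (fun t => decide (σ e i ∈ s (Sum.inr (β e, t)))) = d y := by
      intro e i
      by_contra h
      exact hW e i (WG_eq_zero (W e) h)
    have hX : ∀ a i, ∃ x : X, (fun t => decide (i ∈ s (Sum.inl (a, t)))) = c x := by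
      intro a i
      obtain ⟨e, rfl⟩ := hα a
      exact (hcc e i).1
    have hY : ∀ b i, ∃ y : Y, (fun t => decide (i ∈ s (Sum.inr (b, t)))) = d y := by
      intro b i
      obtain ⟨e, rfl⟩ := hβ b
      have := (hcc e ((σ e).symm i)).2
      rwa [Equiv.apply_symm_apply] at this
    choose x' hx' using hX
    choose y' hy' using hY
    refine ⟨(x', y'), by simp, ?_⟩
    funext q
    rcases q with ⟨a, t⟩ | ⟨b, t⟩
    · ext i
      have h1 := congrFun (hx' a i) t
      have h2 := congrFun (hl (x', y') a i) t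
      have h3 : decide (i ∈ φ (x', y') (Sum.inl (a, t))) = decide (i ∈ s (Sum.inl (a, t))) :=
        h2.trans h1.symm
      simpa using h3
    · ext i
      have h1 := congrFun (hy' b i) t
      have h2 := congrFun (hr (x', y') b i) t
      have h3 : decide (i ∈ φ (x', y') (Sum.inr (b, t))) = decide (i ∈ s (Sum.inr (b, t))) :=
        h2.trans h1.symm
      simpa using h3
  · intro p _
    unfold gL
    refine Finset.prod_congr rfl fun e _ => Finset.prod_congr rfl fun i _ => ?_
    rw [hl, hr, WG_code hc hd]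

theorem sum_fL {c : X → P → Bool} {d : Y → Q → Bool} (hc : Function.Injective c)
    (hd : Function.Injective d) (W : E → X → Y → ℝ) (α : E → A) (β : E → B)
    (hα : Function.Surjective α) (hβ : Function.Surjective β) :
    ∑ y, fL c d W α β y = ∑ x : A → X, ∑ y : B → Y, ∏ e, W e (x (α e)) (y (β e)) := by
  rw [← Fintype.sum_prod_type' (f := fun (x : A → X) (y : B → Y) =>
      ∏ e, W e (x (α e)) (y (β e)))]
  symm
  let φ : (A → X) × (B → Y) → ((A × P) ⊕ (B × Q) → Bool) := fun p =>
    Sum.elim (fun q => c (p.1 q.1) q.2) (fun q => d (p.2 q.1) q.2)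
  have hl : ∀ p a, (fun t => φ p (Sum.inl (a, t))) = c (p.1 a) := fun p a => rfl
  have hr : ∀ p b, (fun t => φ p (Sum.inr (b, t))) = d (p.2 b) := fun p b => rfl
  refine Finset.sum_of_injOn φ ?_ (fun p _ => by simp) ?_ ?_
  · intro p _ p' _ h
    refine Prod.ext ?_ ?_
    · funext a
      apply hc
      rw [← hl p, ← hl p', h]
    · funext b
      apply hd
      rw [← hr p, ← hr p', h]
  · intro s _ hs
    by_contra hne
    apply hs
    have hW : ∀ e, WG c d (W e) (fun t => s (Sum.inl (α e, t)))
        (fun t => s (Sum.inr (β e, t))) ≠ 0 := by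
      intro e h0
      apply hne
      unfold fL
      exact Finset.prod_eq_zero (Finset.mem_univ e) h0
    have hcc : ∀ e, (∃ x : X, (fun t => s (Sum.inl (α e, t))) = c x) ∧
        ∃ y : Y, (fun t => s (Sum.inr (β e, t))) = d y := by
      intro e
      by_contra h
      exact hW e (WG_eq_zero (W e) h)
    have hX : ∀ a, ∃ x : X, (fun t => s (Sum.inl (a, t))) = c x := by
      intro a
      obtain ⟨e, rfl⟩ := hα a
      exact (hcc e).1
    have hY : ∀ b, ∃ y : Y, (fun t => s (Sum.inr (b, t))) = d y := by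
      intro b
      obtain ⟨e, rfl⟩ := hβ b
      exact (hcc e).2
    choose x' hx' using hX
    choose y' hy' using hY
    refine ⟨(x', y'), by simp, ?_⟩
    funext q
    rcases q with ⟨a, t⟩ | ⟨b, t⟩
    · exact (congrFun (hl (x', y') a) t).trans (congrFun (hx' a) t).symm
    · exact (congrFun (hr (x', y') b) t).trans (congrFun (hy' b) t).symm
  · intro p _
    unfold fL
    refine Finset.prod_congr rfl fun e _ => ?_
    rw [hl, hr, WG_code hc hd]

/-- The lift inequality for kernels that may depend on the edge. -/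
theorem lift_ineqE [Lattice X] [Lattice Y] {c : X → P → Bool} {d : Y → Q → Bool} (hc : IsCode c)
    (hd : IsCode d) {W : E → X → Y → ℝ} (hW : ∀ e, LSK (W e)) (α : E → A) (β : E → B)
    (hα : Function.Surjective α) (hβ : Function.Surjective β) (σ : E → Equiv.Perm (Fin k)) :
    ∑ x : A → Fin k → X, ∑ y : B → Fin k → Y,
      ∏ e, ∏ i, W e (x (α e) i) (y (β e) (σ e i)) ≤
    (∑ x : A → X, ∑ y : B → Y, ∏ e, W e (x (α e)) (y (β e))) ^ k := by
  rw [← sum_gL hc.inj hd.inj W α β hα hβ σ, ← sum_fL hc.inj hd.inj W α β hα hβ]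
  exact klift' (lsm_gL hc hd hW α β σ)
    (fun y => Finset.prod_nonneg fun e _ => (lsm_WG hc hd (hW e)).1 (_, _))
    (gL_le hc hd hW α β σ)

/-- The lift inequality with log-supermodular vertex weights. -/
theorem lift_ineqW [Lattice X] [Lattice Y] {c : X → P → Bool} {d : Y → Q → Bool} (hc : IsCode c)
    (hd : IsCode d) {W : X → Y → ℝ} (hW : LSK W) {w : X → ℝ} (hw : LSM w) {v : Y → ℝ} (hv : LSM v)
    (α : E → A) (β : E → B)
    (hα : Function.Surjective α) (hβ : Function.Surjective β) (σ : E → Equiv.Perm (Fin k)) :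
    ∑ x : A → Fin k → X, ∑ y : B → Fin k → Y,
      (∏ a, ∏ i, w (x a i)) * (∏ b, ∏ i, v (y b i)) *
      ∏ e, ∏ i, W (x (α e) i) (y (β e) (σ e i)) ≤
    (∑ x : A → X, ∑ y : B → Y, (∏ a, w (x a)) * (∏ b, v (y b)) *
      ∏ e, W (x (α e)) (y (β e))) ^ k := by
  choose sA hsA using hα
  choose sB hsB using hβ
  -- the kernels
  let V : E → X → Y → ℝ := fun e x y =>
    W x y * (if sA (α e) = e then w x else 1) * (if sB (β e) = e then v y else 1)
  have hV : ∀ e, LSK (V e) := by
    intro e
    have hwif : ∀ x, 0 ≤ (if sA (α e) = e then w x else 1) := by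
      intro x; split
      · exact hw.1 x
      · exact zero_le_one
    have hvif : ∀ y, 0 ≤ (if sB (β e) = e then v y else 1) := by
      intro y; split
      · exact hv.1 y
      · exact zero_le_one
    refine ⟨fun x y => mul_nonneg (mul_nonneg (hW.1 x y) (hwif x)) (hvif y), ?_⟩
    intro x x' y y'
    have h1 := hW.2 x x' y y'
    have h2 : (if sA (α e) = e then w x else 1) * (if sA (α e) = e then w x' else 1) ≤
        (if sA (α e) = e then w (x ⊓ x') else 1) * (if sA (α e) = e then w (x ⊔ x') else 1) := by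
      split
      · exact hw.2 x x'
      · exact le_rfl
    have h3 : (if sB (β e) = e then v y else 1) * (if sB (β e) = e then v y' else 1) ≤
        (if sB (β e) = e then v (y ⊓ y') else 1) * (if sB (β e) = e then v (y ⊔ y') else 1) := by
      split
      · exact hv.2 y y'
      · exact le_rfl
    have h4 := mul_le_mul (mul_le_mul h1 h2 (mul_nonneg (hwif _) (hwif _))
      (mul_nonneg (hW.1 _ _) (hW.1 _ _))) h3 (mul_nonneg (hvif _) (hvif _))
      (mul_nonneg (mul_nonneg (hW.1 _ _) (hW.1 _ _)) (mul_nonneg (hwif _) (hwif _)))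
    show W x y * (if sA (α e) = e then w x else 1) * (if sB (β e) = e then v y else 1) *
      (W x' y' * (if sA (α e) = e then w x' else 1) * (if sB (β e) = e then v y' else 1)) ≤
      W (x ⊓ x') (y ⊓ y') * (if sA (α e) = e then w (x ⊓ x') else 1) *
        (if sB (β e) = e then v (y ⊓ y') else 1) *
      (W (x ⊔ x') (y ⊔ y') * (if sA (α e) = e then w (x ⊔ x') else 1) *
        (if sB (β e) = e then v (y ⊔ y') else 1))
    refine le_trans (le_of_eq (by ring)) (h4.trans (le_of_eq (by ring)))
  -- products over the distinguished edges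
  have hprodA : ∀ g : A → ℝ, ∏ e, (if sA (α e) = e then g (α e) else 1) = ∏ a, g a := by
    intro g
    rw [Finset.prod_ite, Finset.prod_const_one, mul_one]
    refine Finset.prod_bij' (fun e _ => α e) (fun a _ => sA a) ?_ ?_ ?_ ?_ ?_
    · intro e _; exact Finset.mem_univ _
    · intro a _; simp [hsA a]
    · intro e he; simpa using he
    · intro a _; exact hsA a
    · intro e _; rfl
  have hprodB : ∀ g : B → ℝ, ∏ e, (if sB (β e) = e then g (β e) else 1) = ∏ b, g b := by
    intro g
    rw [Finset.prod_ite, Finset.prod_const_one, mul_one]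
    refine Finset.prod_bij' (fun e _ => β e) (fun b _ => sB b) ?_ ?_ ?_ ?_ ?_
    · intro e _; exact Finset.mem_univ _
    · intro b _; simp [hsB b]
    · intro e he; simpa using he
    · intro b _; exact hsB b
    · intro e _; rfl
  have h := lift_ineqE hc hd hV α β (fun a => ⟨sA a, hsA a⟩) (fun b => ⟨sB b, hsB b⟩) σ
  refine le_trans (le_of_eq ?_) (h.trans (le_of_eq ?_))
  · refine Finset.sum_congr rfl fun x _ => Finset.sum_congr rfl fun y _ => ?_
    have e1 : ∏ e, ∏ i, V e (x (α e) i) (y (β e) (σ e i)) =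
        (∏ e, ∏ i, W (x (α e) i) (y (β e) (σ e i))) *
        (∏ e, (if sA (α e) = e then ∏ i, w (x (α e) i) else 1)) *
        (∏ e, (if sB (β e) = e then ∏ i, v (y (β e) i) else 1)) := by
      rw [← Finset.prod_mul_distrib, ← Finset.prod_mul_distrib]
      refine Finset.prod_congr rfl fun e _ => ?_
      have e2 : ∏ i, (if sB (β e) = e then v (y (β e) (σ e i)) else 1) =
          if sB (β e) = e then ∏ i, v (y (β e) i) else 1 := by
        by_cases hb : sB (β e) = e
        · simp only [hb, if_true]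
          exact Equiv.prod_comp (σ e) (fun i => v (y (β e) i))
        · simp only [hb, if_false, Finset.prod_const_one]
      have e3 : ∏ i, (if sA (α e) = e then w (x (α e) i) else 1) =
          if sA (α e) = e then ∏ i, w (x (α e) i) else 1 := by
        by_cases ha : sA (α e) = e
        · simp only [ha, if_true]
        · simp only [ha, if_false, Finset.prod_const_one]
      rw [← e2, ← e3, ← Finset.prod_mul_distrib, ← Finset.prod_mul_distrib]
    rw [e1, hprodA (fun a => ∏ i, w (x a i)), hprodB (fun b => ∏ i, v (y b i))]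
    ring
  · congr 1
    refine Finset.sum_congr rfl fun x _ => Finset.sum_congr rfl fun y _ => ?_
    have e1 : ∏ e, V e (x (α e)) (y (β e)) =
        (∏ e, W (x (α e)) (y (β e))) *
        (∏ e, (if sA (α e) = e then w (x (α e)) else 1)) *
        (∏ e, (if sB (β e) = e then v (y (β e)) else 1)) := by
      rw [← Finset.prod_mul_distrib, ← Finset.prod_mul_distrib]
    rw [e1, hprodA (fun a => w (x a)), hprodB (fun b => v (y b))]
    ring

end Vale.Agent.P050.L
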