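import Vale.Agent.P050.L.Lift
import Vale.Agent.P050.L.Average
import Vale.Agent.P050.T.Limit

/-! P050: Sidorenko's inequality for log-supermodular kernels and weights on finite distributive
lattices. -/

namespace Vale.Agent.P050.L

open Finset Vale.Agent.P050.T

variable {A B E : Type*} [Fintype A] [DecidableEq A] [Fintype B] [DecidableEq B]
  [Fintype E] [DecidableEq E]

theorem exists_liftG {X Y : Type*} [Fintype X] [Fintype Y] {k : ℕ} {W : X → Y → ℝ}
    (hW : ∀ x y, 0 ≤ W x y) {w : X → ℝ} {v : Y → ℝ} (hw : ∀ x, 0 ≤ w x) (hv : ∀ y, 0 ≤ v y)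
    (hN : ∑ x, w x = 1) (hM : ∑ y, v y = 1)
    (α : E → A) (β : E → B) (hα : Function.Surjective α) (hβ : Function.Surjective β) :
    ∃ σ : E → Equiv.Perm (Fin k),
      ((∑ x, ∑ y, w x * v y * W x y) ^ k /
          ((k : ℝ) + 1) ^ (Fintype.card X + Fintype.card Y)) ^ Fintype.card E ≤
      ∑ x : A → Fin k → X, ∑ y : B → Fin k → Y,
        (∏ a, ∏ i, w (x a i)) * (∏ b, ∏ i, v (y b i)) *
        ∏ e, ∏ i, W (x (α e) i) (y (β e) (σ e i)) := by
  classical
  let eX := Fintype.equivFin X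
  let eY := Fintype.equivFin Y
  have s1 : ∑ x, w (eX.symm x) = 1 := by rw [← hN]; exact eX.symm.sum_comp w
  have s2 : ∑ y, v (eY.symm y) = 1 := by rw [← hM]; exact eY.symm.sum_comp v
  have s3 : ∑ x, ∑ y, w (eX.symm x) * v (eY.symm y) * W (eX.symm x) (eY.symm y) =
      ∑ x, ∑ y, w x * v y * W x y := by
    rw [← eX.symm.sum_comp (fun x => ∑ y, w x * v y * W x y)]
    refine Finset.sum_congr rfl fun x _ => ?_
    exact eY.symm.sum_comp (fun y => w (eX.symm x) * v y * W (eX.symm x) y)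
  obtain ⟨σ, hσ⟩ := exists_liftW (k := k) (W := fun x y => W (eX.symm x) (eY.symm y))
    (fun x y => hW _ _) (w := fun x => w (eX.symm x)) (v := fun y => v (eY.symm y))
    (fun x => hw _) (fun y => hv _) (by rw [s1]; exact one_pos) (by rw [s2]; exact one_pos)
    α β hα hβ
  refine ⟨σ, ?_⟩
  rw [s1, s2, s3, one_pow, one_pow, one_mul, one_mul, div_one] at hσ
  refine hσ.trans (le_of_eq ?_)
  rw [← (Equiv.arrowCongr (Equiv.refl A) (Equiv.arrowCongr (Equiv.refl (Fin k)) eX.symm)).sum_comp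
    (fun x : A → Fin k → X => ∑ y : B → Fin k → Y,
        (∏ a, ∏ i, w (x a i)) * (∏ b, ∏ i, v (y b i)) *
        ∏ e, ∏ i, W (x (α e) i) (y (β e) (σ e i)))]
  refine Finset.sum_congr rfl fun x _ => ?_
  rw [← (Equiv.arrowCongr (Equiv.refl B) (Equiv.arrowCongr (Equiv.refl (Fin k)) eY.symm)).sum_comp
    (fun y : B → Fin k → Y => (∏ a, ∏ i, w ((Equiv.arrowCongr (Equiv.refl A)
      (Equiv.arrowCongr (Equiv.refl (Fin k)) eX.symm)) x a i)) * (∏ b, ∏ i, v (y b i)) *
        ∏ e, ∏ i, W ((Equiv.arrowCongr (Equiv.refl A)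
      (Equiv.arrowCongr (Equiv.refl (Fin k)) eX.symm)) x (α e) i) (y (β e) (σ e i)))]
  rfl

/-- No isolated vertices. -/
theorem sidorenko_surj {X Y : Type*} [DistribLattice X] [Fintype X] [DistribLattice Y] [Fintype Y]
    {W : X → Y → ℝ} (hW : LSK W) {w : X → ℝ} (hw : LSM w) {v : Y → ℝ} (hv : LSM v)
    (hw1 : ∑ x, w x = 1) (hv1 : ∑ y, v y = 1)
    (α : E → A) (β : E → B) (hα : Function.Surjective α) (hβ : Function.Surjective β) :
    (∑ x, ∑ y, w x * v y * W x y) ^ Fintype.card E ≤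
      ∑ x : A → X, ∑ y : B → Y, (∏ a, w (x a)) * (∏ b, v (y b)) *
        ∏ e, W (x (α e)) (y (β e)) := by
  obtain ⟨n1, c, hc⟩ := exists_code X
  obtain ⟨n2, d, hd⟩ := exists_code Y
  have hp : 0 ≤ ∑ x, ∑ y, w x * v y * W x y :=
    Finset.sum_nonneg fun x _ => Finset.sum_nonneg fun y _ =>
      mul_nonneg (mul_nonneg (hw.1 x) (hv.1 y)) (hW.1 x y)
  have hT : 0 ≤ ∑ x : A → X, ∑ y : B → Y, (∏ a, w (x a)) * (∏ b, v (y b)) *
        ∏ e, W (x (α e)) (y (β e)) :=
    Finset.sum_nonneg fun x _ => Finset.sum_nonneg fun y _ => mul_nonneg (mul_nonneg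
      (Finset.prod_nonneg fun a _ => hw.1 _) (Finset.prod_nonneg fun a _ => hv.1 _))
      (Finset.prod_nonneg fun e _ => hW.1 _ _)
  have hD : 0 ≤ (∑ x, ∑ y, w x * v y * W x y) ^ Fintype.card E := by positivity
  rcases hD.eq_or_lt with h0 | h0
  · rw [← h0]
    exact hT
  refine (one_le_div h0).mp (one_le_of_pow (div_nonneg hT hD)
    ((Fintype.card X + Fintype.card Y) * Fintype.card E) ?_)
  intro k _
  obtain ⟨σ, hσ⟩ := exists_liftG (k := k) hW.1 hw.1 hv.1 hw1 hv1 α β hα hβ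
  have h1 := hσ.trans (lift_ineqW hc hd hW hw hv α β hα hβ σ)
  rw [div_pow, le_div_iff₀ (pow_pos h0 k)]
  refine le_trans (le_of_eq ?_) h1
  rw [div_pow ((∑ x, ∑ y, w x * v y * W x y) ^ k), ← pow_mul, ← pow_mul, ← pow_mul,
    mul_comm (Fintype.card E) k]
  ring

theorem sum_restrictW {A : Type*} [Fintype A] [DecidableEq A] (p : A → Prop) [DecidablePred p]
    {X : Type*} [Fintype X] {w : X → ℝ} (hw : ∑ x, w x = 1) (F : ({a // p a} → X) → ℝ) :
    ∑ x : A → X, (∏ a, w (x a)) * F (fun a => x a) =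
      ∑ x' : {a // p a} → X, (∏ a, w (x' a)) * F x' := by
  classical
  rw [← (Equiv.piEquivPiSubtypeProd p (fun _ => X)).symm.sum_comp, Fintype.sum_prod_type]
  have h1 : ∀ (x' : {a // p a} → X) (x'' : {a // ¬ p a} → X),
      (fun a : {a // p a} => (Equiv.piEquivPiSubtypeProd p (fun _ => X)).symm (x', x'') a)
        = x' := by
    intro x' x''
    funext a
    simp [Equiv.piEquivPiSubtypeProd, a.2]
  have h2 : ∀ (x' : {a // p a} → X) (x'' : {a // ¬ p a} → X),
      ∏ a, w ((Equiv.piEquivPiSubtypeProd p (fun _ => X)).symm (x', x'') a) =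
        (∏ a, w (x' a)) * ∏ a, w (x'' a) := by
    intro x' x''
    rw [← Fintype.prod_subtype_mul_prod_subtype p]
    congr 1
    · refine Finset.prod_congr rfl fun a _ => ?_
      simp [Equiv.piEquivPiSubtypeProd, a.2]
    · refine Finset.prod_congr rfl fun a _ => ?_
      simp [Equiv.piEquivPiSubtypeProd, a.2]
  have h3 : ∑ x'' : {a // ¬ p a} → X, ∏ a, w (x'' a) = 1 := by
    have h4 := Finset.prod_univ_sum (fun _ : {a // ¬ p a} => (univ : Finset X))
      (fun _ x => w x)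
    rw [Fintype.piFinset_univ] at h4
    rw [← h4, hw, Finset.prod_const_one]
  simp only [h1, h2]
  refine Finset.sum_congr rfl fun x' _ => ?_
  calc ∑ x'' : {a // ¬ p a} → X, (∏ a, w (x' a)) * (∏ a, w (x'' a)) * F x'
      = ((∏ a, w (x' a)) * F x') * ∑ x'' : {a // ¬ p a} → X, ∏ a, w (x'' a) := by
        rw [Finset.mul_sum]
        exact Finset.sum_congr rfl fun x'' _ => by ring
    _ = _ := by rw [h3, mul_one]

/-- Sidorenko's inequality for all bipartite graphs (edge set `E ⊆ A × B`). -/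
theorem bigraph_lsm {A B : Type*} [Fintype A] [DecidableEq A] [Fintype B] [DecidableEq B]
    (E : Finset (A × B)) {X Y : Type*} [DistribLattice X] [Fintype X] [DistribLattice Y]
    [Fintype Y] {W : X → Y → ℝ} (hW : LSK W) {w : X → ℝ} (hw : LSM w) {v : Y → ℝ} (hv : LSM v)
    (hw1 : ∑ x, w x = 1) (hv1 : ∑ y, v y = 1) :
    (∑ x, ∑ y, w x * v y * W x y) ^ E.card ≤
      ∑ x : A → X, ∑ y : B → Y, (∏ a, w (x a)) * (∏ b, v (y b)) *
        ∏ e ∈ E, W (x e.1) (y e.2) := by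
  classical
  let p : A → Prop := fun a => ∃ b, (a, b) ∈ E
  let r : B → Prop := fun b => ∃ a, (a, b) ∈ E
  let α : E → {a // p a} := fun e => ⟨e.1.1, e.1.2, e.2⟩
  let β : E → {b // r b} := fun e => ⟨e.1.2, e.1.1, e.2⟩
  have hα : Function.Surjective α := by
    rintro ⟨a, b, h⟩
    exact ⟨⟨(a, b), h⟩, rfl⟩
  have hβ : Function.Surjective β := by
    rintro ⟨b, a, h⟩
    exact ⟨⟨(a, b), h⟩, rfl⟩
  have key := sidorenko_surj hW hw hv hw1 hv1 α β hα hβ
  rw [Fintype.card_coe] at key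
  refine key.trans (le_of_eq ?_)
  symm
  have hprod : ∀ (x : A → X) (y : B → Y), ∏ e ∈ E, W (x e.1) (y e.2) =
      ∏ e : E, W ((fun a : {a // p a} => x a) (α e)) ((fun b : {b // r b} => y b) (β e)) := by
    intro x y
    rw [← Finset.prod_coe_sort E]
  have h1 : ∀ x : A → X, ∑ y : B → Y, (∏ a, w (x a)) * (∏ b, v (y b)) *
        ∏ e ∈ E, W (x e.1) (y e.2) =
      (∏ a, w (x a)) * (fun x' : {a // p a} → X => ∑ y' : {b // r b} → Y,
        (∏ b, v (y' b)) * ∏ e : E, W (x' (α e)) (y' (β e))) (fun a => x a) := by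
    intro x
    show _ = (∏ a, w (x a)) * ∑ y' : {b // r b} → Y,
        (∏ b, v (y' b)) * ∏ e : E, W (x (α e)) (y' (β e))
    rw [← sum_restrictW r hv1 (fun y' => ∏ e : E, W (x (α e)) (y' (β e))), Finset.mul_sum]
    refine Finset.sum_congr rfl fun y _ => ?_
    rw [hprod]
    ring
  rw [Finset.sum_congr rfl fun x _ => h1 x]
  rw [sum_restrictW p hw1 (fun x' : {a // p a} → X => ∑ y' : {b // r b} → Y,
        (∏ b, v (y' b)) * ∏ e : E, W (x' (α e)) (y' (β e)))]
  refine Finset.sum_congr rfl fun x _ => ?_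
  rw [Finset.mul_sum]
  refine Finset.sum_congr rfl fun y _ => ?_
  ring

/-- Ferromagnetic (log-supermodular) kernels on a lattice: nonnegative and
`W x y * W x' y' ≤ W (x ⊓ x') (y ⊓ y') * W (x ⊔ x') (y ⊔ y')`. -/
def Ferro {X : Type*} [Lattice X] (W : X → X → ℝ) : Prop :=
  (∀ x y, 0 ≤ W x y) ∧
    ∀ x x' y y', W x y * W x' y' ≤ W (x ⊓ x') (y ⊓ y') * W (x ⊔ x') (y ⊔ y')

/-- Antiferromagnetic kernels on a lattice: nonnegative and
`W x y * W x' y' ≤ W (x ⊓ x') (y ⊔ y') * W (x ⊔ x') (y ⊓ y')`. -/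
def Antiferro {X : Type*} [Lattice X] (W : X → X → ℝ) : Prop :=
  (∀ x y, 0 ≤ W x y) ∧
    ∀ x x' y y', W x y * W x' y' ≤ W (x ⊓ x') (y ⊔ y') * W (x ⊔ x') (y ⊓ y')

/-- Log-supermodular probability weights (the FKG lattice condition). -/
def FKGWeight {X : Type*} [Lattice X] [Fintype X] (w : X → ℝ) : Prop :=
  (∀ x, 0 ≤ w x) ∧ (∀ x y, w x * w y ≤ w (x ⊓ y) * w (x ⊔ y)) ∧ ∑ x, w x = 1

/-- `∏_{uv ∈ E(H)} W(x_u, x_v)` for a symmetric kernel `W`. -/
def edgeProd {V : Type*} [Fintype V] [DecidableEq V] {X : Type*}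
    (H : SimpleGraph V) [DecidableRel H.Adj] (W : X → X → ℝ) (hs : ∀ x y, W x y = W y x)
    (x : V → X) : ℝ :=
  ∏ e ∈ H.edgeFinset, Sym2.lift ⟨fun u v => W (x u) (x v), fun _ _ => hs _ _⟩ e

/-- The simple graph form. -/
theorem graph_lsm {V : Type*} [Fintype V] [DecidableEq V] (H : SimpleGraph V)
    [DecidableRel H.Adj] (hH : H.Colorable 2) {X : Type*} [DistribLattice X] [Fintype X]
    {w : X → ℝ} (hw : FKGWeight w) {W : X → X → ℝ} (hs : ∀ x y, W x y = W y x)
    (hW : Ferro W ∨ Antiferro W) :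
    (∑ x, ∑ y, w x * w y * W x y) ^ H.edgeFinset.card ≤
      ∑ x : V → X, (∏ u, w (x u)) * edgeProd H W hs x := by
  classical
  obtain ⟨c⟩ := hH
  let p : V → Prop := fun v => c v = 0
  let E : Finset ({v // p v} × {v // ¬ p v}) :=
    univ.filter (fun e => H.Adj (e.1 : V) (e.2 : V))
  have key : (∑ x, ∑ y, w x * w y * W x y) ^ E.card ≤
      ∑ x : {v // p v} → X, ∑ y : {v // ¬ p v} → X, (∏ a, w (x a)) * (∏ b, w (y b)) *
        ∏ e ∈ E, W (x e.1) (y e.2) := by
    rcases hW with hW | hW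
    · exact bigraph_lsm E (X := X) (Y := X) ⟨hW.1, hW.2⟩ ⟨hw.1, hw.2.1⟩ ⟨hw.1, hw.2.1⟩ hw.2.2
        hw.2.2
    · exact bigraph_lsm E (X := X) (Y := Xᵒᵈ) (W := fun x y => W x (OrderDual.ofDual y))
        (w := w) (v := fun y => w (OrderDual.ofDual y))
        ⟨fun x y => hW.1 _ _, fun x x' y y' => hW.2 x x' (OrderDual.ofDual y)
          (OrderDual.ofDual y')⟩ ⟨hw.1, hw.2.1⟩
        ⟨fun y => hw.1 _, fun y y' => by
          have h := hw.2.1 (OrderDual.ofDual y) (OrderDual.ofDual y')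
          rw [mul_comm (w (OrderDual.ofDual y ⊓ OrderDual.ofDual y'))] at h
          exact h⟩ hw.2.2 hw.2.2
  have hinj : Set.InjOn (fun e : {v // p v} × {v // ¬ p v} => s((e.1 : V), (e.2 : V))) E := by
    rintro ⟨⟨a, ha⟩, ⟨b, hb⟩⟩ - ⟨⟨a', ha'⟩, ⟨b', hb'⟩⟩ - h
    simp only [Sym2.eq_iff] at h
    rcases h with ⟨h1, h2⟩ | ⟨h1, h2⟩
    · subst h1; subst h2; rfl
    · exact absurd (h1 ▸ ha) hb'
  have himg : H.edgeFinset = E.image (fun e => s((e.1 : V), (e.2 : V))) := by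
    ext e
    induction e using Sym2.ind with
    | _ u v =>
      rw [SimpleGraph.mem_edgeFinset, SimpleGraph.mem_edgeSet, Finset.mem_image]
      constructor
      · intro h
        have hne : c u ≠ c v := c.valid h
        by_cases hu : c u = 0
        · have hv : ¬ c v = 0 := fun hv => hne (hu.trans hv.symm)
          exact ⟨(⟨u, hu⟩, ⟨v, hv⟩), by simpa [E] using h, rfl⟩
        · have hv : c v = 0 := by
            have h1 : ∀ a b : Fin 2, a ≠ 0 → a ≠ b → b = 0 := by decide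
            exact h1 _ _ hu hne
          exact ⟨(⟨v, hv⟩, ⟨u, hu⟩), by simpa [E] using h.symm, Sym2.eq_swap⟩
      · rintro ⟨⟨⟨a, ha⟩, ⟨b, hb⟩⟩, hab, h⟩
        have hab' : H.Adj a b := by simpa [E] using hab
        simp only [Sym2.eq_iff] at h
        rcases h with ⟨rfl, rfl⟩ | ⟨rfl, rfl⟩
        · exact hab'
        · exact hab'.symm
  have hcard : H.edgeFinset.card = E.card := by
    rw [himg, Finset.card_image_of_injOn hinj]
  have hprod : ∀ z : V → X, edgeProd H W hs z = ∏ e ∈ E, W (z e.1) (z e.2) := by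
    intro z
    unfold edgeProd
    rw [himg, Finset.prod_image hinj]
    rfl
  rw [hcard]
  refine key.trans (le_of_eq ?_)
  rw [← (Equiv.piEquivPiSubtypeProd p (fun _ => X)).symm.sum_comp, Fintype.sum_prod_type]
  refine Finset.sum_congr rfl fun x _ => Finset.sum_congr rfl fun y _ => ?_
  rw [hprod, ← Fintype.prod_subtype_mul_prod_subtype p]
  congr 1
  · congr 1
    · refine Finset.prod_congr rfl fun a _ => ?_
      simp [Equiv.piEquivPiSubtypeProd, a.2]
    · refine Finset.prod_congr rfl fun a _ => ?_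
      simp [Equiv.piEquivPiSubtypeProd, a.2]
  · refine Finset.prod_congr rfl fun e _ => ?_
    have h1 : (Equiv.piEquivPiSubtypeProd p (fun _ => X)).symm (x, y) (e.1 : V) = x e.1 := by
      simp [Equiv.piEquivPiSubtypeProd, e.1.2]
    have h2 : (Equiv.piEquivPiSubtypeProd p (fun _ => X)).symm (x, y) (e.2 : V) = y e.2 := by
      simp [Equiv.piEquivPiSubtypeProd, e.2.2]
    rw [h1, h2]

end Vale.Agent.P050.L
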